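import Mathlib
import Vale.Agent.Lib.P238.Defs
import Vale.Agent.Lib.P238.Penta

namespace Vale.Agent.Results.P238.PentagonalBound

open Vale.Agent.Lib.P238

/-- For every `n ≥ 4`, every map of the binary words of length `n` with the edit distance into
`ℓ¹` has distortion at least `5/4`: if `‖f x - f y‖ ≤ A * ED(x,y)` and
`ED(x,y) ≤ B * ‖f x - f y‖` for all words `x, y` of length `n`, then `A * B ≥ 5/4`. -/
theorem result (n : ℕ) (hn : 4 ≤ n) (f : List Bool → lp (fun _ : ℕ => ℝ) 1) (A B : ℝ)
    (hA : ∀ x y : List Bool, x.length = n → y.length = n → ‖f x - f y‖ ≤ A * (lev x y : ℝ))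
    (hB : ∀ x y : List Bool, x.length = n → y.length = n → (lev x y : ℝ) ≤ B * ‖f x - f y‖) :
    5 / 4 ≤ A * B :=
  main n hn f A B hA hB

end Vale.Agent.Results.P238.PentagonalBound
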